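import Vale.Agent.Lib.P101.Defs

open Filter Topology
open scoped BoundedContinuousFunction

set_option linter.unusedSectionVars false

namespace Vale.Agent.Lib.P095

open Vale.Agent.Lib.P101

universe u v

variable (A : Type u) [CStarAlgebra A] (ω : Ultrafilter ℕ) {G : Type v} [Group G]

/-- An element of `A_ω` is fixed by the action induced by `α` if, for every group element `g` and
every bounded sequence `y` representing it, `‖α g (y n) - y n‖` tends to zero along `ω`. -/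
def FixedBy (α : G →* (A ≃⋆ₐ[ℂ] A)) (z : Aω A ω) : Prop :=
  ∀ (g : G) (y : ℕ →ᵇ A), ((y : ℕ →ᵇ A) : Aω A ω) = z →
    Tendsto (fun n => ‖α g (y n) - y n‖) ω (𝓝 0)

variable {A ω}

theorem aut_norm_le (φ : A ≃⋆ₐ[ℂ] A) (a : A) : ‖φ a‖ ≤ ‖a‖ :=
  NonUnitalStarAlgHom.norm_apply_le φ a

theorem fixedBy_of_seq {α : G →* (A ≃⋆ₐ[ℂ] A)} {y : ℕ →ᵇ A}
    (h : ∀ g, Tendsto (fun n => ‖α g (y n) - y n‖) ω (𝓝 0)) :
    FixedBy A ω α ((y : ℕ →ᵇ A) : Aω A ω) := by
  intro g w hw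
  have hn : Tendsto (fun n => ‖w n - y n‖) ω (𝓝 0) := (nullCon A ω).eq.mp hw
  have h2 : Tendsto (fun n => ‖α g (y n) - y n‖ + (‖w n - y n‖ + ‖w n - y n‖)) ω (𝓝 0) := by
    simpa using (h g).add (hn.add hn)
  refine squeeze_zero (fun _ => norm_nonneg _) (fun n => ?_) h2
  have e : α g (w n) - w n = (α g (y n) - y n) + (α g (w n - y n) - (w n - y n)) := by
    rw [map_sub]
    abel
  rw [e]
  refine (norm_add_le _ _).trans (add_le_add le_rfl ((norm_sub_le _ _).trans ?_))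
  exact add_le_add (aut_norm_le _ _) le_rfl

theorem fixedBy_mul {α : G →* (A ≃⋆ₐ[ℂ] A)} {a b : Aω A ω} (ha : FixedBy A ω α a)
    (hb : FixedBy A ω α b) : FixedBy A ω α (a * b) := by
  obtain ⟨y, rfl⟩ : ∃ y : ℕ →ᵇ A, ((y : ℕ →ᵇ A) : Aω A ω) = a := Quotient.mk''_surjective a
  obtain ⟨y', rfl⟩ : ∃ y : ℕ →ᵇ A, ((y : ℕ →ᵇ A) : Aω A ω) = b := Quotient.mk''_surjective b
  refine fixedBy_of_seq (y := y * y') (fun g => ?_)
  have h2 : Tendsto (fun n => ‖y‖ * ‖α g (y' n) - y' n‖ + ‖α g (y n) - y n‖ * ‖y'‖) ω (𝓝 0) := by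
    simpa using ((hb g y' rfl).const_mul ‖y‖).add ((ha g y rfl).mul_const ‖y'‖)
  refine squeeze_zero (fun _ => norm_nonneg _) (fun n => ?_) h2
  have e : α g ((y * y') n) - (y * y') n
      = α g (y n) * (α g (y' n) - y' n) + (α g (y n) - y n) * y' n := by
    simp only [BoundedContinuousFunction.coe_mul, Pi.mul_apply, map_mul]
    noncomm_ring
  rw [e]
  refine (norm_add_le _ _).trans (add_le_add ?_ ?_)
  · refine (norm_mul_le _ _).trans ?_
    gcongr
    exact (aut_norm_le _ _).trans (y.norm_coe_le_norm n)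
  · refine (norm_mul_le _ _).trans ?_
    gcongr
    exact y'.norm_coe_le_norm n

theorem fixedBy_add {α : G →* (A ≃⋆ₐ[ℂ] A)} {a b : Aω A ω} (ha : FixedBy A ω α a)
    (hb : FixedBy A ω α b) : FixedBy A ω α (a + b) := by
  obtain ⟨y, rfl⟩ : ∃ y : ℕ →ᵇ A, ((y : ℕ →ᵇ A) : Aω A ω) = a := Quotient.mk''_surjective a
  obtain ⟨y', rfl⟩ : ∃ y : ℕ →ᵇ A, ((y : ℕ →ᵇ A) : Aω A ω) = b := Quotient.mk''_surjective b
  refine fixedBy_of_seq (y := y + y') (fun g => ?_)
  have h2 : Tendsto (fun n => ‖α g (y n) - y n‖ + ‖α g (y' n) - y' n‖) ω (𝓝 0) := by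
    simpa using (ha g y rfl).add (hb g y' rfl)
  refine squeeze_zero (fun _ => norm_nonneg _) (fun n => ?_) h2
  have e : α g ((y + y') n) - (y + y') n = (α g (y n) - y n) + (α g (y' n) - y' n) := by
    simp only [BoundedContinuousFunction.coe_add, Pi.add_apply, map_add]
    abel
  rw [e]
  exact norm_add_le _ _

theorem fixedBy_star {α : G →* (A ≃⋆ₐ[ℂ] A)} {a : Aω A ω} (ha : FixedBy A ω α a) :
    FixedBy A ω α (star a) := by
  obtain ⟨y, rfl⟩ : ∃ y : ℕ →ᵇ A, ((y : ℕ →ᵇ A) : Aω A ω) = a := Quotient.mk''_surjective a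
  refine fixedBy_of_seq (y := star y) (fun g => ?_)
  have e : ∀ n, ‖α g ((star y) n) - (star y) n‖ = ‖α g (y n) - y n‖ := fun n => by
    rw [BoundedContinuousFunction.star_apply, map_star, ← star_sub, norm_star]
  simp only [e]
  exact ha g y rfl

theorem fixedBy_algebraMap {α : G →* (A ≃⋆ₐ[ℂ] A)} (r : ℂ) :
    FixedBy A ω α (algebraMap ℂ (Aω A ω) r) := by
  refine fixedBy_of_seq (y := algebraMap ℂ (ℕ →ᵇ A) r) (fun g => ?_)
  have e : ∀ n, ‖α g ((algebraMap ℂ (ℕ →ᵇ A) r) n) - (algebraMap ℂ (ℕ →ᵇ A) r) n‖ = 0 := fun n => by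
    have e1 : (algebraMap ℂ (ℕ →ᵇ A) r) n = algebraMap ℂ A r := rfl
    rw [e1, AlgHomClass.commutes, sub_self, norm_zero]
  simp only [e]
  exact tendsto_const_nhds

variable (A ω) in
/-- The fixed point algebra `F_ω(A)^α`: the elements of the central sequence algebra `F_ω(A)`
fixed by the action induced by `α`. -/
noncomputable def FωFix (α : G →* (A ≃⋆ₐ[ℂ] A)) : StarSubalgebra ℂ (Aω A ω) where
  carrier := {z | z ∈ Fω A ω ∧ FixedBy A ω α z}
  mul_mem' := fun ha hb => ⟨mul_mem ha.1 hb.1, fixedBy_mul ha.2 hb.2⟩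
  add_mem' := fun ha hb => ⟨add_mem ha.1 hb.1, fixedBy_add ha.2 hb.2⟩
  algebraMap_mem' := fun r => ⟨(Fω A ω).algebraMap_mem r, fixedBy_algebraMap r⟩
  star_mem' := fun ha => ⟨star_mem ha.1, fixedBy_star ha.2⟩

variable (A ω) in
/-- `F_ω(A)^α` as a type of its own, with the algebra structure it has as a star subalgebra. -/
def FωFixAlg (α : G →* (A ≃⋆ₐ[ℂ] A)) : Type u := FωFix A ω α

noncomputable instance (α : G →* (A ≃⋆ₐ[ℂ] A)) : Ring (FωFixAlg A ω α) :=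
  (inferInstance : Ring (FωFix A ω α))

noncomputable instance (α : G →* (A ≃⋆ₐ[ℂ] A)) : StarRing (FωFixAlg A ω α) :=
  (inferInstance : StarRing (FωFix A ω α))

noncomputable instance (α : G →* (A ≃⋆ₐ[ℂ] A)) : Algebra ℂ (FωFixAlg A ω α) :=
  (inferInstance : Algebra ℂ (FωFix A ω α))

end Vale.Agent.Lib.P095
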