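import Vale.Agent.Lib.P095.Defs
import Vale.Agent.Lib.P101.Main2

set_option linter.unusedSimpArgs false
set_option linter.unusedVariables false
set_option linter.unusedSectionVars false
set_option linter.style.haveILetI false

open Filter Topology
open scoped BoundedContinuousFunction CStarAlgebra

namespace Vale.Agent.Lib.P095

open Vale.Agent.Lib.P101

universe u v

variable {A : Type u} [CStarAlgebra A] {ω : Ultrafilter ℕ} {G : Type v} [Group G]

lemma fixedBy_closed {α : G →* (A ≃⋆ₐ[ℂ] A)} : IsClosed {z : Aω A ω | FixedBy A ω α z} := by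
  rw [← isSeqClosed_iff_isClosed]
  intro z z₀ hz hlim g y hy
  -- a Cauchy style estimate
  rw [Metric.tendsto_nhds]
  intro ε hε
  have hε4 : 0 < ε / 4 := by positivity
  obtain ⟨N, hN⟩ := Metric.tendsto_atTop.mp hlim _ hε4
  have hd := hN N le_rfl
  obtain ⟨w, hw⟩ : ∃ w : ℕ →ᵇ A, mk ω w = z N := mk_surjective (z N)
  have hzN := hz N g w hw
  have hd' : ‖mk ω (y - w)‖ < ε / 4 := by
    rw [map_sub, hw]
    have : mk ω y = z₀ := hy
    rw [this, ← dist_eq_norm, dist_comm]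
    exact hd
  have h1 := tendsto_norm_mk (ω := ω) (y - w)
  have ev1 : ∀ᶠ n in (ω : Filter ℕ), ‖(y - w) n‖ < ε / 4 :=
    h1.eventually (gt_mem_nhds hd')
  have ev2 : ∀ᶠ n in (ω : Filter ℕ), ‖α g (w n) - w n‖ < ε / 4 :=
    hzN.eventually (by simpa using gt_mem_nhds hε4)
  filter_upwards [ev1, ev2] with n h3 h4
  rw [Real.dist_eq, sub_zero, abs_of_nonneg (norm_nonneg _)]
  have e : α g (y n) - y n = (α g (w n) - w n) + (α g ((y - w) n) - (y - w) n) := by
    have e1 : (y - w) n = y n - w n := rfl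
    rw [e1, map_sub]
    abel
  rw [e]
  calc ‖(α g (w n) - w n) + (α g ((y - w) n) - (y - w) n)‖
      ≤ ‖α g (w n) - w n‖ + (‖α g ((y - w) n)‖ + ‖(y - w) n‖) :=
        (norm_add_le _ _).trans (add_le_add le_rfl (norm_sub_le _ _))
    _ ≤ ‖α g (w n) - w n‖ + (‖(y - w) n‖ + ‖(y - w) n‖) := by
        gcongr
        exact aut_norm_le _ _
    _ < ε := by linarith

lemma isClosed_FωFix (α : G →* (A ≃⋆ₐ[ℂ] A)) : IsClosed (FωFix A ω α : Set (Aω A ω)) :=
  (isClosed_central (isCentralAlg_Fω (A := A) (ω := ω))).inter fixedBy_closed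

/-- The selection of the reindexing. -/
theorem exists_reindex_fix [TopologicalSpace.SeparableSpace A] [Countable G]
    (hω : (ω : Filter ℕ) ≤ cofinite) (α : G →* (A ≃⋆ₐ[ℂ] A)) (L : Set (ℕ →ᵇ A))
    (hsep : TopologicalSpace.IsSeparable L) (hne : L.Nonempty)
    (hL : ∀ y ∈ L, mk ω y ∈ FωFix A ω α) :
    ∃ σ : ℕ → ℕ, (∀ y ∈ L, ‖mk ω (reindex σ y)‖ ≤ ‖mk ω y‖) ∧
      (∀ y ∈ L, mk ω (reindex σ y) ∈ FωFix A ω α) ∧
      ∀ y ∈ L, ∀ y' ∈ L, Commute (mk ω (reindex σ y)) (mk ω y') := by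
  classical
  obtain ⟨T, hTL, hTc, hLT⟩ := hsep.exists_countable_dense_subset
  have hTne : T.Nonempty := by
    obtain ⟨y₀, hy₀⟩ := hne
    exact closure_nonempty_iff.mp ⟨y₀, hLT hy₀⟩
  obtain ⟨y, rfl⟩ := hTc.exists_eq_range hTne
  have hyL : ∀ j, y j ∈ L := fun j => hTL ⟨j, rfl⟩
  have hF : IsCentralAlg (Fω A ω) := isCentralAlg_Fω
  have hcentral : ∀ j (a : A), Tendsto (fun m => ‖y j m * a - a * y j m‖) ω (𝓝 0) := fun j a =>
    tendsto_comm (z := constSeq a) ((hF.mem_iff _).mp (hL _ (hyL j)).1 a)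
  obtain ⟨γ, hγ⟩ := exists_surjective_nat G
  have hfix : ∀ j k, Tendsto (fun m => ‖α (γ k) (y j m) - y j m‖) ω (𝓝 0) := fun j k =>
    (hL _ (hyL j)).2 (γ k) (y j) rfl
  obtain ⟨b, hb⟩ := TopologicalSpace.exists_dense_seq A
  let ε : ℕ → ℝ := fun n => 1 / ((n : ℝ) + 1)
  have hεpos : ∀ n, 0 < ε n := fun n => by
    simp only [ε]
    positivity
  have hε : Tendsto ε ω (𝓝 0) := by
    have h1 : Tendsto ε atTop (𝓝 0) := tendsto_one_div_add_atTop_nhds_zero_nat
    rw [← Nat.cofinite_eq_atTop] at h1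
    exact h1.mono_left hω
  have hsel : ∀ n, ∃ m, (∀ j ∈ Finset.range (n + 1), |‖y j m‖ - ‖mk ω (y j)‖| < ε n) ∧
      (∀ j ∈ Finset.range (n + 1), ∀ l ∈ Finset.range (n + 1), ‖y j m * b l - b l * y j m‖ < ε n) ∧
      (∀ j ∈ Finset.range (n + 1), ∀ l ∈ Finset.range (n + 1),
        ‖y j m * y l n - y l n * y j m‖ < ε n) ∧
      (∀ j ∈ Finset.range (n + 1), ∀ l ∈ Finset.range (n + 1),
        ‖α (γ l) (y j m) - y j m‖ < ε n) := by
    intro n
    have h1 : ∀ᶠ m in (ω : Filter ℕ), ∀ j ∈ Finset.range (n + 1), |‖y j m‖ - ‖mk ω (y j)‖| < ε n := by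
      rw [Filter.eventually_all_finset]
      intro j _
      have := (tendsto_norm_mk (ω := ω) (y j))
      have h2 : Tendsto (fun m => |‖y j m‖ - ‖mk ω (y j)‖|) ω (𝓝 0) := by
        have := (this.sub_const ‖mk ω (y j)‖).abs
        simpa using this
      exact h2.eventually (gt_mem_nhds (hεpos n))
    have h2 : ∀ᶠ m in (ω : Filter ℕ), ∀ j ∈ Finset.range (n + 1), ∀ l ∈ Finset.range (n + 1),
        ‖y j m * b l - b l * y j m‖ < ε n := by
      rw [Filter.eventually_all_finset]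
      intro j _
      rw [Filter.eventually_all_finset]
      intro l _
      exact (hcentral j (b l)).eventually (gt_mem_nhds (hεpos n))
    have h3 : ∀ᶠ m in (ω : Filter ℕ), ∀ j ∈ Finset.range (n + 1), ∀ l ∈ Finset.range (n + 1),
        ‖y j m * y l n - y l n * y j m‖ < ε n := by
      rw [Filter.eventually_all_finset]
      intro j _
      rw [Filter.eventually_all_finset]
      intro l _
      exact (hcentral j (y l n)).eventually (gt_mem_nhds (hεpos n))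
    have h4 : ∀ᶠ m in (ω : Filter ℕ), ∀ j ∈ Finset.range (n + 1), ∀ l ∈ Finset.range (n + 1),
        ‖α (γ l) (y j m) - y j m‖ < ε n := by
      rw [Filter.eventually_all_finset]
      intro j _
      rw [Filter.eventually_all_finset]
      intro l _
      exact (hfix j l).eventually (gt_mem_nhds (hεpos n))
    obtain ⟨m, hm1, hm2, hm3, hm4⟩ := (h1.and (h2.and (h3.and h4))).exists
    exact ⟨m, hm1, hm2, hm3, hm4⟩
  choose σ hσ1 hσ2 hσ3 hσ4 using hsel
  have hev : ∀ j : ℕ, ∀ᶠ n in (ω : Filter ℕ), j ∈ Finset.range (n + 1) := by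
    intro j
    have h1 : ∀ᶠ n in (cofinite : Filter ℕ), j ≤ n := by
      rw [Nat.cofinite_eq_atTop]
      exact eventually_ge_atTop j
    filter_upwards [hω h1] with n hn
    exact Finset.mem_range.mpr (by omega)
  have lim0 : ∀ {f : ℕ → ℝ}, (∀ᶠ n in (ω : Filter ℕ), |f n| < ε n) → Tendsto f ω (𝓝 0) := by
    intro f hf
    refine squeeze_zero_norm' ?_ hε
    filter_upwards [hf] with n hn
    rw [Real.norm_eq_abs]
    exact hn.le
  -- statement (a) on the dense sequence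
  have ha' : ∀ j, ‖mk ω (reindex σ (y j))‖ = ‖mk ω (y j)‖ := by
    intro j
    have h1 : Tendsto (fun n => ‖y j (σ n)‖ - ‖mk ω (y j)‖) ω (𝓝 0) := by
      refine lim0 ?_
      filter_upwards [hev j] with n hn
      exact hσ1 n j hn
    have h2 : Tendsto (fun n => ‖y j (σ n)‖) ω (𝓝 ‖mk ω (y j)‖) := by
      have := h1.add_const ‖mk ω (y j)‖
      simpa using this
    exact tendsto_nhds_unique (tendsto_norm_mk (reindex σ (y j))) h2
  -- statement (b) on the dense sequence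
  have hconst : Continuous (fun a : A => mk ω (constSeq a)) :=
    (mk_continuous (ω := ω)).comp (map_continuous constSeq)
  have hb' : ∀ j, mk ω (reindex σ (y j)) ∈ FωFix A ω α := by
    intro j
    refine ⟨?_, ?_⟩
    · rw [hF.mem_iff]
      intro a
      refine hb.induction_on (p := fun a => Commute (mk ω (reindex σ (y j))) (mk ω (constSeq a))) a
        (isClosed_eq (by fun_prop) (by fun_prop)) (fun l => ?_)
      refine commute_of_tendsto (lim0 ?_)
      filter_upwards [hev j, hev l] with n hn hn'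
      rw [abs_of_nonneg (norm_nonneg _)]
      exact hσ2 n j hn l hn'
    · refine fixedBy_of_seq (fun g => ?_)
      obtain ⟨k, rfl⟩ := hγ g
      refine lim0 ?_
      filter_upwards [hev j, hev k] with n hn hn'
      rw [abs_of_nonneg (norm_nonneg _)]
      exact hσ4 n j hn k hn'
  -- statement (c) on the dense sequence
  have hc' : ∀ j l, Commute (mk ω (reindex σ (y j))) (mk ω (y l)) := by
    intro j l
    refine commute_of_tendsto (lim0 ?_)
    filter_upwards [hev j, hev l] with n hn hn'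
    rw [abs_of_nonneg (norm_nonneg _)]
    exact hσ3 n j hn l hn'
  have hFc : IsClosed (FωFix A ω α : Set (Aω A ω)) := isClosed_FωFix α
  have hcr := continuous_mk_reindex (A := A) (ω := ω) σ
  have hmk : Continuous (mk ω : (ℕ →ᵇ A) →⋆ₐ[ℂ] Aω A ω) := mk_continuous
  refine ⟨σ, ?_, ?_, ?_⟩
  · intro z hz
    have hcl : IsClosed {z : ℕ →ᵇ A | ‖mk ω (reindex σ z)‖ ≤ ‖mk ω z‖} :=
      isClosed_le hcr.norm hmk.norm
    refine hcl.closure_subset_iff.mpr ?_ (hLT hz)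
    rintro _ ⟨j, rfl⟩
    exact (ha' j).le
  · intro z hz
    have hcl : IsClosed {z : ℕ →ᵇ A | mk ω (reindex σ z) ∈ FωFix A ω α} := hFc.preimage hcr
    refine hcl.closure_subset_iff.mpr ?_ (hLT hz)
    rintro _ ⟨j, rfl⟩
    exact hb' j
  · intro z hz z' hz'
    have hcl : IsClosed {q : (ℕ →ᵇ A) × (ℕ →ᵇ A) |
        Commute (mk ω (reindex σ q.1)) (mk ω q.2)} := by
      refine isClosed_eq ?_ ?_
      · exact (hcr.comp continuous_fst).mul (hmk.comp continuous_snd)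
      · exact (hmk.comp continuous_snd).mul (hcr.comp continuous_fst)
    have hsub : Set.range y ×ˢ Set.range y ⊆ {q : (ℕ →ᵇ A) × (ℕ →ᵇ A) |
        Commute (mk ω (reindex σ q.1)) (mk ω q.2)} := by
      rintro ⟨_, _⟩ ⟨⟨j, rfl⟩, ⟨l, rfl⟩⟩
      exact hc' j l
    have hmem : (z, z') ∈ closure (Set.range y ×ˢ Set.range y) := by
      rw [closure_prod_eq]
      exact ⟨hLT hz, hLT hz'⟩
    exact hcl.closure_subset_iff.mpr hsub hmem


/-- A subalgebra with the reindexing property has copies. -/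
theorem hasCopies_of_reindex {F : StarSubalgebra ℂ (Aω A ω)} [hc : IsClosed (F : Set (Aω A ω))]
    (hre : ∀ L : Set (ℕ →ᵇ A), TopologicalSpace.IsSeparable L → L.Nonempty →
      (∀ y ∈ L, mk ω y ∈ F) → ∃ σ : ℕ → ℕ, (∀ y ∈ L, ‖mk ω (reindex σ y)‖ ≤ ‖mk ω y‖) ∧
        (∀ y ∈ L, mk ω (reindex σ y) ∈ F) ∧
        ∀ y ∈ L, ∀ y' ∈ L, Commute (mk ω (reindex σ y)) (mk ω y')) :
    HasCopies F := by
  classical
  rintro B ⟨S, hS, hBS⟩
  choose lift hlift using fun s : F => mk_surjective (ω := ω) (s : Aω A ω)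
  obtain ⟨L₀, hL₀⟩ : ∃ L₀ : StarSubalgebra ℂ (ℕ →ᵇ A), L₀ = StarAlgebra.adjoin ℂ (lift '' S) :=
    ⟨_, rfl⟩
  have hmap := lift_map_mem (ω := ω) (F := F) hBS hlift hL₀
  have hsurj := lift_surj_mem (ω := ω) (F := F) hBS hlift hL₀
  have hLF : ∀ y ∈ L₀, mk ω y ∈ F := by
    intro y hy
    obtain ⟨z, -, hz⟩ := StarSubalgebra.mem_map.mp (hmap y hy)
    rw [← hz]
    exact z.2
  have hsep : TopologicalSpace.IsSeparable (L₀ : Set (ℕ →ᵇ A)) :=
    isSeparable_adjoin (hS.image lift) hL₀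
  obtain ⟨σ, h1, h2, h3⟩ := hre (L₀ : Set (ℕ →ᵇ A)) hsep ⟨1, L₀.one_mem⟩ hLF
  let f₁ : L₀ →⋆ₐ[ℂ] F := ((mk ω).comp L₀.subtype).codRestrict F (fun y => hLF y y.2)
  have hf₁ : ∀ y, ((f₁ y : F) : Aω A ω) = mk ω (y : ℕ →ᵇ A) := fun y => rfl
  have hf₂ : ∀ y, f₁ y ∈ B := by
    intro y
    obtain ⟨z, hz, hz'⟩ := StarSubalgebra.mem_map.mp (hmap y y.2)
    have : f₁ y = z := Subtype.ext (hf₁ y ▸ hz'.symm)
    rw [this]
    exact hz
  let f₂ : L₀ →⋆ₐ[ℂ] B := f₁.codRestrict B hf₂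
  have hf₂c : ∀ y, (((f₂ y : B) : F) : Aω A ω) = mk ω (y : ℕ →ᵇ A) := fun y => rfl
  let g : L₀ →⋆ₐ[ℂ] F :=
    (((mk ω).comp (reindex σ)).comp L₀.subtype).codRestrict F (fun y => h2 y y.2)
  have hg : ∀ y, ((g y : F) : Aω A ω) = mk ω (reindex σ (y : ℕ →ᵇ A)) := fun y => rfl
  have hsf : Function.Surjective f₂ := by
    intro x
    obtain ⟨y, hy, hy'⟩ := StarSubalgebra.mem_map.mp (hsurj x x.2)
    exact ⟨⟨y, hy⟩, Subtype.ext (Subtype.ext hy')⟩
  have hker : ∀ y, f₂ y = 0 → g y = 0 := by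
    intro y hy
    have h0 : mk ω (y : ℕ →ᵇ A) = 0 := by
      rw [← hf₂c, hy]
      rfl
    have h4 := h1 y y.2
    rw [h0, norm_zero] at h4
    exact Subtype.ext (norm_le_zero_iff.mp h4)
  obtain ⟨ρ, hρ⟩ := exists_descend (X := L₀) (Y := B) (Z := F) f₂ g hsf hker
  refine ⟨ρ, fun x => ?_, fun x x' => ?_⟩
  · obtain ⟨y, rfl⟩ := hsf x
    rw [hρ]
    have e1 : ‖g y‖ = ‖mk ω (reindex σ (y : ℕ →ᵇ A))‖ := rfl
    have e2 : ‖((f₂ y : B) : F)‖ = ‖mk ω (y : ℕ →ᵇ A)‖ := rfl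
    rw [e1, e2]
    exact h1 y y.2
  · obtain ⟨y, rfl⟩ := hsf x
    obtain ⟨y', rfl⟩ := hsf x'
    rw [hρ]
    exact Subtype.ext (h3 y y.2 y' y'.2)


/-- No characters on the fixed point algebra gives a unital homomorphism of `Z_{2,3}`. -/
theorem exists_hom_fix [TopologicalSpace.SeparableSpace A] [Countable G]
    (hω : (ω : Filter ℕ) ≤ cofinite) (α : G →* (A ≃⋆ₐ[ℂ] A))
    (hχ : IsEmpty (FωFix A ω α →⋆ₐ[ℂ] ℂ)) : Nonempty (Z23 →⋆ₐ[ℂ] FωFix A ω α) := by
  haveI : IsClosed (FωFix A ω α : Set (Aω A ω)) := isClosed_FωFix α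
  have hcop : HasCopies (FωFix A ω α) :=
    hasCopies_of_reindex (exists_reindex_fix hω α)
  obtain ⟨t, s, h1, h2, h3⟩ := abstract_main hcop hχ
  obtain ⟨Φ, _, _⟩ := exists_hom_Z23 (D := FωFix A ω α) ⟨h1, h2, h3⟩
  exact ⟨Φ⟩

end Vale.Agent.Lib.P095
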